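import Crest.Agent.X262.Sym65.Cal
import Crest.Agent.X262.Wd54.Gx
import Crest.Agent.X262.Val40.Pull

/-!
# Row 262, road B (helper33), part 1: the excess class on a product field

* `BF B K₁ K₂`, `Nt Θ Z₁ Z₂` : a class for every pair of places, natural for field embeddings;
* `Nt.ind`, `gx_of_ind` : a nonzero integral forces independent residues, hence a Gauss extension;
* `sm_gx`   : sums over the Gauss extensions;
* `sm_ker`  : the product formula with an arbitrary kernel;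
* `isPF_of_prd`, `prd_of_isPF`.
-/

set_option autoImplicit false
set_option linter.unusedSectionVars false
set_option linter.style.haveILetI false

noncomputable section

namespace Crest.Agent.X262.Prod33

open Crest.Agent.X277 Crest.Agent.X277.BD Crest.Agent.X277.Pst Crest.Agent.X277.BD.Cyc Polynomial
open Crest.Agent.X262.Geo (od od_eq_zero essFT_Rf dim_Rf')
open Crest.Agent.X262.Hb Crest.Agent.X262.Sym65 Crest.Agent.X262.Wd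
open Crest.Agent.R274.Prod1_134 (IsPF)
open Crest.Agent.R276.DivVal_858 (ResInd)
open Set

variable {K K₁ K₂ L E : Type} [Field K] [Algebra ℂ K] [Field K₁] [Algebra ℂ K₁] [Field K₂]
  [Algebra ℂ K₂] [Field L] [Algebra ℂ L] [Field E] [Algebra ℂ E] {B : Th}

/-! ### independent families -/

theorem exists_ind [Algebra.EssFiniteType ℂ E] {S : Set E}
    (h : dim ℂ E = dim ℂ (IntermediateField.adjoin ℂ S)) :
    ∃ y : Fin (dim ℂ E) → E, (∀ i, y i ∈ S) ∧ AlgebraicIndependent ℂ y := by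
  haveI := essFT_of_hom (IntermediateField.adjoin ℂ S).val
  have h0 : 0 < deg (IntermediateField.adjoin ℂ S).val := (deg_pos_iff _).2 h
  have h1 : Module.Finite (IntermediateField.adjoin ℂ S) E := Module.finite_of_finrank_pos h0
  have h2 : Algebra.IsAlgebraic (Algebra.adjoin ℂ S) E :=
    IntermediateField.isAlgebraic_adjoin_iff_top.1 inferInstance
  obtain ⟨t, ht, hb⟩ := exists_isTranscendenceBasis_subset (R := ℂ) S
  have h3 := hb.cardinalMk_eq_trdeg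
  rw [trdeg_eq_dim] at h3
  obtain ⟨e⟩ := Cardinal.mk_eq_nat_iff.1 h3
  exact ⟨fun i => e.symm i, fun i => ht (e.symm i).2, hb.1.comp _ e.symm.injective⟩

theorem ind_option {W : RZ ℂ E} {ι : Type} {y : ι → E} (hy : ResInd ℂ W.1 y) {u : E} (h0 : u ≠ 0)
    (hu : W.v u < 1) : AlgebraicIndependent ℂ fun o : Option ι => o.elim u y := by
  rw [hy.algInd.option_iff_transcendental]
  intro h
  obtain ⟨q, hq, hqu⟩ := h.exists_nonzero_coeff_and_aeval_eq_zero (mem_nonZeroDivisors_of_ne_zero h0)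
  have h1 : ∀ a : Algebra.adjoin ℂ (Set.range y), W.v a ≤ 1 ∧ (a ≠ 0 → W.v a = 1) := by
    rintro ⟨a, ha⟩
    rw [Algebra.adjoin_range_eq_range_aeval] at ha
    obtain ⟨p, rfl⟩ := ha
    by_cases hp : p = 0
    · subst hp
      exact ⟨by simp, fun h => (h (Subtype.ext (map_zero _))).elim⟩
    · exact ⟨(hy.2 p hp).le, fun _ => hy.2 p hp⟩
  have h2 : ∀ p : Polynomial (Algebra.adjoin ℂ (Set.range y)), W.v (Polynomial.aeval u p) ≤ 1 := by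
    intro p
    rw [Polynomial.aeval_eq_sum_range]
    refine W.v.map_sum_le fun i _ => ?_
    rw [Algebra.smul_def, map_mul, map_pow]
    exact mul_le_one' (h1 _).1 (pow_le_one' hu.le i)
  rw [← Polynomial.X_mul_divX_add q, map_add, map_mul, Polynomial.aeval_X, Polynomial.aeval_C,
    add_eq_zero_iff_neg_eq] at hqu
  have h3 := (h1 _).2 hq
  change W.v (algebraMap _ E (q.coeff 0)) = 1 at h3
  rw [← hqu, Valuation.map_neg, map_mul] at h3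
  exact ((mul_le_of_le_one_right' (h2 _)).trans_lt hu).ne h3

theorem resInd_of_rr {W : RZ ℂ E} {ι : Type} {x : ι → E}
    (h : AlgebraicIndependent ℂ fun i => rr W (x i)) : ResInd ℂ W.1 x := resInd_iff_res.2 h

/-- a place takes its values in the field generated by them -/
theorem exists_fac (p : LP K E) (E₀ : IntermediateField ℂ E) (h : range p.r ⊆ E₀) :
    ∃ p' : LP K E₀, p'.comp (LP.hom E₀.val) = p := by
  have h1 : ∀ y, p.emb y ∈ E₀.toSubalgebra := fun y => by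
    obtain ⟨x, -, rfl⟩ := rr_surj p.V y
    rw [p.emb_r]
    exact h ⟨x, rfl⟩
  refine ⟨(LP.at p.V).comp (LP.hom (p.emb.codRestrict E₀.toSubalgebra h1)), LP.ext fun x => ?_⟩
  rw [LP.r_comp, LP.r_comp, LP.r_hom, LP.r_hom]
  exact p.emb_r x

theorem fs_true {p : Prop} (h : p) (x : ℂ) : ∑ᶠ _ : p, x = x := by
  classical
  rw [finsum_eq_if, if_pos h]

theorem fs_false {p : Prop} (h : ¬ p) (x : ℂ) : ∑ᶠ _ : p, x = 0 := by
  classical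
  rw [finsum_eq_if, if_neg h]

/-! ### product fields -/

section PF

variable [Algebra.EssFiniteType ℂ K₁] [Algebra.EssFiniteType ℂ K₂] {a : K₁ →ₐ[ℂ] L}
  {b : K₂ →ₐ[ℂ] L}

theorem prd_of_isPF (h : IsPF a b) : Prd a b := by
  refine ⟨dim_pf h, top_unique ?_⟩
  rw [← h.adjoin_eq, IntermediateField.adjoin_le_iff]
  rintro _ (⟨x, rfl⟩ | ⟨x, rfl⟩)
  · exact (le_sup_left : a.fieldRange ≤ _) ⟨x, rfl⟩
  · exact (le_sup_right : b.fieldRange ≤ _) ⟨x, rfl⟩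

theorem isPF_of_prd [Algebra.EssFiniteType ℂ L] (h : Prd a b) : IsPF a b := by
  have h1 : IntermediateField.adjoin ℂ (range a ∪ range b) = ⊤ := top_unique <| by
    rw [← h.2]
    exact sup_le (fun _ ⟨x, hx⟩ => IntermediateField.subset_adjoin ℂ _ (Or.inl ⟨x, hx⟩))
      fun _ ⟨x, hx⟩ => IntermediateField.subset_adjoin ℂ _ (Or.inr ⟨x, hx⟩)
  obtain ⟨s, hs⟩ := exists_tb ℂ K₁
  obtain ⟨t, ht⟩ := exists_tb ℂ K₂
  refine isPF_of_adjoin (inj_of_algInd hs.isAlgebraic ht.isAlgebraic ?_) h1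
  let R := Algebra.adjoin ℂ (range (Sum.elim (a ∘ s) (b ∘ t)))
  have h2 : ∀ x ∈ range a ∪ range b, IsAlgebraic R x := by
    rintro _ (⟨x, rfl⟩ | ⟨x, rfl⟩)
    · refine isAlg_map a a.injective ?_ (hs.isAlgebraic.1 x)
      rintro _ ⟨_, ⟨i, rfl⟩, rfl⟩
      exact Algebra.subset_adjoin ⟨Sum.inl i, rfl⟩
    · refine isAlg_map b b.injective ?_ (ht.isAlgebraic.1 x)
      rintro _ ⟨_, ⟨i, rfl⟩, rfl⟩
      exact Algebra.subset_adjoin ⟨Sum.inr i, rfl⟩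
  have h3 : Algebra.IsAlgebraic (Algebra.adjoin ℂ (range a ∪ range b)) L :=
    IntermediateField.isAlgebraic_adjoin_iff_top.1 ⟨fun x => by
      have h4 : x ∈ IntermediateField.adjoin ℂ (range a ∪ range b) := h1 ▸ IntermediateField.mem_top
      exact isAlgebraic_algebraMap (⟨x, h4⟩ : IntermediateField.adjoin ℂ (range a ∪ range b))⟩
  have h4 : Algebra.IsAlgebraic R L := ⟨fun x => isAlg_trans
    (isAlg_adjoin (fun c => isAlgebraic_algebraMap (algebraMap ℂ R c)) h2) (h3.1 x)⟩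
  refine (Algebra.IsAlgebraic.isTranscendenceBasis_of_le_trdeg_of_finite ℂ _ ?_).1
  rw [trdeg_eq_dim, h.1]
  simp

theorem gx_of_ind (h : IsPF a b) {W : RZ ℂ L} (hV : (dn a W).1 ≠ ⊤) {ι : Type} [Fintype ι]
    (hc : dim ℂ L ≤ Fintype.card ι + 1) {y : ι → Rf W}
    (h1 : ∀ i, y i ∈ rr W '' (range a ∪ range b)) (h2 : AlgebraicIndependent ℂ y) : Gx a b W := by
  choose x hx hy using h1
  obtain rfl : (fun i => rr W (x i)) = y := funext hy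
  have h3 : (Fintype.card ι : ℕ∞) ≤ (rm W).eRk (range a ∪ range b) :=
    le_rk_iff.2 ⟨x ∘ (Fintype.equivFin ι).symm, fun i => hx _,
      resInd_of_rr (h2.comp _ (Fintype.equivFin ι).symm.injective)⟩
  exact (gx_of_rk h hV (le_trans (by exact_mod_cast hc) (add_le_add_left h3 1))).1

/-- sums over the Gauss extensions -/
theorem sm_gx (h : IsPF a b) (D : BD ℂ K₁) {f : RZ ℂ L → ℂ} {g : RZ ℂ K₁ → ℂ}
    (h1 : ∀ W, Dvs W → od W (pb a D) ≠ 0 → f W ≠ 0 → Gx a b W)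
    (h2 : ∀ W, Gx a b W → Dvs (dn a W) → od (dn a W) D ≠ 0 → f W = g (dn a W)) :
    sm (pb a D) f = sm D g := by
  haveI := essFT_pf h
  choose gx hx hd using exists_gx h
  have h3 : Function.Injective gx := fun V V' e => by rw [← hd V, e, hd]
  have h4 : Function.support (fun W => ∑ᶠ _ : Dvs W, (od W (pb a D) : ℂ) * f W) ⊆ range gx := by
    intro W hW
    by_cases h5 : Dvs W
    · rw [Function.mem_support, fs_true h5, mul_ne_zero_iff, Int.cast_ne_zero] at hW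
      exact ⟨dn a W, (hx _).unique h (h1 W h5 hW.1 hW.2) (hd _)⟩
    · exact (hW (fs_false h5 _)).elim
  rw [sm, ← finsum_mem_univ, ← finsum_mem_inter_support, univ_inter,
    ← inter_eq_right.2 h4, finsum_mem_inter_support, finsum_mem_range h3]
  refine finsum_congr fun V => ?_
  by_cases h5 : Dvs V
  · have h6 : Dvs (dn a (gx V)) := (hd V).symm ▸ h5
    rw [fs_true h5, fs_true ((hx V).dvs h h6), (hx V).od_pb h h6]
    by_cases h7 : od (dn a (gx V)) D = 0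
    · rw [h7, ← hd V, hd, ← hd V, h7, Int.cast_zero, zero_mul, zero_mul]
    · rw [h2 _ (hx V) h6 h7, hd]
  · rw [fs_false h5]
    by_cases h6 : Dvs (gx V)
    · rw [fs_true h6]
      refine mul_eq_zero_of_left (Int.cast_eq_zero.2 (by_contra fun h7 => h5 ?_)) _
      exact hd V ▸ Val40.dvs_dn h6 (Val40.dn_ne_top_of_od h6 h7)
    · exact fs_false h6 _

end PF

/-! ### classes for pairs of places -/

/-- a class for every pair of places -/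
abbrev BF (B : Th) (K₁ K₂ : Type) [Field K₁] [Algebra ℂ K₁] [Field K₂] [Algebra ℂ K₂] : Type 1 :=
  ∀ (E : Type) [Field E] [Algebra ℂ E], LP K₁ E → LP K₂ E → B.H E

/-- the family on a field which contains both fields -/
def BF.dg (Θ : BF B K₁ K₂) (a : K₁ →ₐ[ℂ] L) (b : K₂ →ₐ[ℂ] L) : PF B L :=
  fun E _ _ p => Θ E ((LP.hom a).comp p) ((LP.hom b).comp p)

/-- natural for field embeddings -/
def Nt (Θ : BF B K₁ K₂) (Z₁ : Set (RZ ℂ K₁)) (Z₂ : Set (RZ ℂ K₂)) : Prop :=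
  ∀ (E E' : Type) [Field E] [Algebra ℂ E] [Algebra.EssFiniteType ℂ E] [Field E'] [Algebra ℂ E']
    [Algebra.EssFiniteType ℂ E'] (ρ : E →ₐ[ℂ] E') (p₁ : LP K₁ E) (p₂ : LP K₂ E), p₁.V ∈ Z₁ →
    p₂.V ∈ Z₂ → Θ E' (p₁.comp (LP.hom ρ)) (p₂.comp (LP.hom ρ)) = B.pb (LP.hom ρ) (Θ E p₁ p₂)

/-- the product with one family for each factor -/
def tw (φ₁ : PF B K₁) (φ₂ : PF B K₂) (Θ : BF B K₁ K₂) : BF B K₁ K₂ :=
  fun E _ _ p₁ p₂ => φ₁ E p₁ * φ₂ E p₂ * Θ E p₁ p₂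

variable {Θ : BF B K₁ K₂} {Z₁ : Set (RZ ℂ K₁)} {Z₂ : Set (RZ ℂ K₂)} {φ₁ : PF B K₁} {φ₂ : PF B K₂}

theorem Nt.tw (h : Nt Θ Z₁ Z₂) (l₁ : Liv B Z₁ φ₁) (l₂ : Liv B Z₂ φ₂) : Nt (tw φ₁ φ₂ Θ) Z₁ Z₂ :=
  fun E E' _ _ _ _ _ _ ρ p₁ p₂ h₁ h₂ => by
    rw [Prod33.tw, Prod33.tw, map_mul, map_mul, l₁.nat E E' p₁ _ h₁, l₂.nat E E' p₂ _ h₂,
      h E E' ρ p₁ p₂ h₁ h₂]

/-- a nonzero integral forces independent values -/
theorem Nt.ind (hB : B.Ax) (h : Nt Θ Z₁ Z₂) [Algebra.EssFiniteType ℂ E] {p₁ : LP K₁ E}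
    {p₂ : LP K₂ E} (h₁ : p₁.V ∈ Z₁) (h₂ : p₂.V ∈ Z₂) (h0 : B.itg E (Θ E p₁ p₂) ≠ 0) :
    ∃ y : Fin (dim ℂ E) → E, (∀ i, y i ∈ range p₁.r ∪ range p₂.r) ∧ AlgebraicIndependent ℂ y := by
  refine exists_ind (by_contra fun hd => h0 ?_)
  set E₀ := IntermediateField.adjoin ℂ (range p₁.r ∪ range p₂.r)
  haveI := essFT_of_hom E₀.val
  obtain ⟨q₁, e₁⟩ := exists_fac p₁ E₀ (subset_union_left.trans (IntermediateField.subset_adjoin ℂ _))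
  obtain ⟨q₂, e₂⟩ := exists_fac p₂ E₀ (subset_union_right.trans (IntermediateField.subset_adjoin ℂ _))
  have h3 := h E₀ E E₀.val q₁ q₂ (by rwa [← e₁, LP.comp_hom_V] at h₁)
    (by rwa [← e₂, LP.comp_hom_V] at h₂)
  rw [e₁, e₂] at h3
  rw [h3]
  exact hB.van _ hd _

theorem mem_sup_pb {a : K →ₐ[ℂ] L} {D : BD ℂ K} {p : LP L E} :
    p.V ∈ Sup (pb a D) ↔ ((LP.hom a).comp p).V ∈ Sup D :=
  (res_one_iff (LP.hom a) (val_top D)).not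

theorem cf_pb (hB : B.Ax) (a : K →ₐ[ℂ] L) (D : BD ℂ K) :
    cf B (pb a D) = PF.on (cf B D) (LP.hom a) := by
  funext E _ _ p
  rw [cf, PF.on, cf, hB.pb_comp, hB.pb_c1_hom]

theorem hom_at {b : K →ₐ[ℂ] L} {V : RZ ℂ L} (h : ∀ x, b x ∈ V.1) :
    (LP.hom b).comp (LP.at V) = LP.hom (rt b V h) := LP.ext fun x => by
  rw [LP.r_comp, LP.r_hom, LP.r_hom]
  rfl

theorem hom_at' (a : K →ₐ[ℂ] L) (V : RZ ℂ L) :
    (LP.hom a).comp (LP.at V) = (LP.at (dn a V)).comp (LP.hom (ri a V)) := LP.ext fun x => by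
  rw [LP.r_comp, LP.r_comp, LP.r_hom, LP.r_hom]
  exact (ri_rr a V x).symm

theorem val_pb_of_mem {b : K →ₐ[ℂ] L} {V : RZ ℂ L} (h : ∀ x, b x ∈ V.1) (D : BD ℂ K) :
    (pb b D).val V = 1 := by_contra fun h1 => Val40.dn_ne_top h1 (dn_eq_top.2 h)

theorem res_pb_of_mem {b : K →ₐ[ℂ] L} {V : RZ ℂ L} (h : ∀ x, b x ∈ V.1) (D : BD ℂ K) :
    (plV V).res (pb b D) = pb (rt b V h) D := by
  have h1 := LP.res_comp (LP.hom b) (LP.at V) (a := D)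
    ((res_one_iff (LP.hom b) (val_top D)).1 (val_pb_of_mem h D))
  rw [hom_at h] at h1
  exact h1.symm

section Ker

variable [Algebra.EssFiniteType ℂ K₁] [Algebra.EssFiniteType ℂ K₂] {a : K₁ →ₐ[ℂ] L}
  {b : K₂ →ₐ[ℂ] L} {D₁ : BD ℂ K₁} {D₂ : BD ℂ K₂}

/-- on a component which meets both divisors -/
theorem gx_one (hB : B.Ax) (h : IsPF a b) (hΘ : Nt Θ (Sup D₁) (Sup D₂)) {V : RZ ℂ L} (hV : Dvs V)
    (h₁ : V ∈ Sup (pb a D₁)) (h₂ : V ∈ Sup (pb b D₂)) (h0 : i1 (Θ.dg a b) V ≠ 0) : Gx a b V := by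
  haveI := essFT_pf h
  haveI := essFT_Rf hV
  obtain ⟨y, h3, h4⟩ := hΘ.ind hB (mem_sup_pb.1 (show (LP.at V).V ∈ _ from h₁))
    (mem_sup_pb.1 (show (LP.at V).V ∈ _ from h₂)) h0
  refine gx_of_ind h (Val40.dn_ne_top h₁) (by rw [Fintype.card_fin, dim_Rf' hV]) (fun i => ?_) h4
  rcases h3 i with ⟨x, hx⟩ | ⟨x, hx⟩
  · exact ⟨a x, Or.inl ⟨x, rfl⟩, by rw [← hx, LP.r_comp, LP.r_hom]; rfl⟩
  · exact ⟨b x, Or.inr ⟨x, rfl⟩, by rw [← hx, LP.r_comp, LP.r_hom]; rfl⟩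

theorem flag_mem {V : RZ ℂ L} {W : RZ ℂ (Rf V)} (h₁ : V ∈ Sup (pb a D₁))
    (h₂ : (pb b D₂).val V = 1) (h₃ : W ∈ Sup ((plV V).res (pb b D₂))) :
    ((LP.hom a).comp ((LP.at V).comp (LP.at W))).V ∈ Sup D₁ ∧
      ((LP.hom b).comp ((LP.at V).comp (LP.at W))).V ∈ Sup D₂ :=
  ⟨mem_sup_pb.1 (cl_sup _ _ V (Pl.cm_le (p := plV V) W) h₁),
    mem_sup_pb.1 ((res_one_iff (LP.at V) h₂).not.1 h₃)⟩

theorem flag_ind (hB : B.Ax) (h : IsPF a b) (hΘ : Nt Θ (Sup D₁) (Sup D₂)) {V : RZ ℂ L}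
    (hV : Dvs V) (h₁ : V ∈ Sup (pb a D₁)) (h₂ : (pb b D₂).val V = 1) {W : RZ ℂ (Rf V)}
    (hW : Dvs W) (h₃ : W ∈ Sup ((plV V).res (pb b D₂))) (h0 : i2 (Θ.dg a b) V W ≠ 0) :
    ∃ x : Fin (dim ℂ (Rf W)) → L, (∀ i, x i ∈ range a ∪ range b) ∧
      AlgebraicIndependent ℂ fun i => rr W (rr V (x i)) := by
  haveI := essFT_pf h
  haveI := essFT_Rf hV
  haveI := essFT_Rf hW
  obtain ⟨y, h3, h4⟩ := hΘ.ind hB (flag_mem h₁ h₂ h₃).1 (flag_mem h₁ h₂ h₃).2 h0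
  have h5 : ∀ i, ∃ x ∈ range a ∪ range b, rr W (rr V x) = y i := fun i => by
    rcases h3 i with ⟨x, hx⟩ | ⟨x, hx⟩
    · exact ⟨a x, Or.inl ⟨x, rfl⟩, by rw [← hx, LP.r_comp, LP.r_comp, LP.r_hom]; rfl⟩
    · exact ⟨b x, Or.inr ⟨x, rfl⟩, by rw [← hx, LP.r_comp, LP.r_comp, LP.r_hom]; rfl⟩
  choose x hx hy using h5
  exact ⟨x, hx, (funext hy : _ = y).symm ▸ h4⟩

/-- on a flag -/
theorem gx_two (hB : B.Ax) (h : IsPF a b) (hΘ : Nt Θ (Sup D₁) (Sup D₂)) {V : RZ ℂ L}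
    (hV : Dvs V) (h₁ : V ∈ Sup (pb a D₁)) (h₂ : (pb b D₂).val V = 1) {W : RZ ℂ (Rf V)}
    (hW : Dvs W) (h₃ : W ∈ Sup ((plV V).res (pb b D₂))) (h0 : i2 (Θ.dg a b) V W ≠ 0) :
    Gx a b V := by
  haveI := essFT_pf h
  haveI := essFT_Rf hV
  obtain ⟨x, hx, hi⟩ := flag_ind hB h hΘ hV h₁ h₂ hW h₃ h0
  have h4 : ∃ t, rr V (b t) ∉ W.1 := by
    by_contra! h5
    refine (flag_mem h₁ h₂ h₃).2 (one_of_le (V := _) (U := ((LP.hom b).comp (LP.at V)).V)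
      (fun t ht => ?_) ((res_one_iff (LP.hom b) (val_top D₂)).1 h₂))
    exact ⟨trivial, ht.2, by rw [LP.r_hom]; exact h5 t⟩
  obtain ⟨t, ht⟩ := h4
  have h5 : rr V (b t) ≠ 0 := fun h6 => ht (h6 ▸ zero_mem _)
  have h6 : W.v (rr V (b t))⁻¹ < 1 := by
    rw [map_inv₀]
    exact inv_lt_one_of_one_lt₀ (lt_of_not_ge fun h7 => ht (RZ.le_one_iff.1 h7))
  refine gx_of_ind h (Val40.dn_ne_top h₁) ?_ (fun o => ?_)
    (ind_option (resInd_of_rr hi) (inv_ne_zero h5) h6)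
  · rw [Fintype.card_option, Fintype.card_fin, dim_Rf' hV, dim_Rf' hW]
  · rcases o with _ | i
    · exact ⟨b t⁻¹, Or.inr ⟨_, rfl⟩, by rw [map_inv₀]; exact Pl.r_inv _⟩
    · exact ⟨x i, hx i, rfl⟩

/-- the inner sum on a Gauss extension -/
theorem sm_in (hB : B.Ax) (h : IsPF a b) (hΘ : Nt Θ (Sup D₁) (Sup D₂)) {V : RZ ℂ L}
    (hG : Gx a b V) (hV : Dvs (dn a V)) (h₁ : od (dn a V) D₁ ≠ 0) {g : RZ ℂ K₂ → ℂ}
    (hg : ∀ V₂, Dvs V₂ → od V₂ D₂ ≠ 0 → ∀ (E : Type) [Field E] [Algebra ℂ E]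
      [Algebra.EssFiniteType ℂ E] (c₁ : Rf (dn a V) →ₐ[ℂ] E) (c₂ : Rf V₂ →ₐ[ℂ] E), IsPF c₁ c₂ →
      B.itg E (Θ E ((LP.at _).comp (LP.hom c₁)) ((LP.at V₂).comp (LP.hom c₂))) = g V₂) :
    sm ((plV V).res (pb b D₂)) (i2 (Θ.dg a b) V) = sm D₂ g := by
  haveI := essFT_pf h
  have hD := hG.dvs h hV
  haveI := essFT_Rf hV
  haveI := essFT_Rf hD
  have h2 := (hG.isPF h).symm
  have h3 : V ∈ Sup (pb a D₁) := (mem_sup hD).2 (by rwa [hG.od_pb h hV])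
  rw [res_pb_of_mem hG.mem]
  refine sm_gx h2 D₂ (fun W hW h4 h0 => ?_) fun W hW h4 h5 => ?_
  · have h5 := (mem_sup hW).2 h4
    obtain ⟨x, hx, hi⟩ := flag_ind hB h hΘ hD h3 (val_pb_of_mem hG.mem D₂) hW
      (by rwa [res_pb_of_mem hG.mem]) h0
    refine gx_of_ind h2 (Val40.dn_ne_top h5) (by rw [Fintype.card_fin, dim_Rf' hW]) (fun i => ?_) hi
    refine ⟨_, ?_, rfl⟩
    rcases hx i with ⟨t, ht⟩ | ⟨t, ht⟩
    · exact Or.inr ⟨_, ht ▸ ri_rr a V t⟩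
    · exact Or.inl ⟨t, ht ▸ rfl⟩
  · haveI := essFT_Rf (hW.dvs h2 h4)
    rw [← hg _ h4 h5 (Rf W) _ _ (hW.isPF h2).symm, i2, BF.dg, ← LP.comp_assoc, ← LP.comp_assoc,
      hom_at hG.mem, hom_at' a V, hom_at' _ W, LP.comp_assoc, hom_at hW.mem]

/-- **the product formula with a kernel** -/
theorem sm_ker (h2 : TwoStmt) (hB : B.Ax) (h : IsPF a b) (h₁ : 0 ≤ D₁) (h₂ : 0 ≤ D₂)
    {P₁ : PX B K₁} {P₂ : PX B K₂} (l₁ : LivX B (Sup D₁) P₁) (l₂ : LivX B (Sup D₂) P₂)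
    (z₁ : ∀ (E : Type) [Field E] [Algebra ℂ E] [Algebra.EssFiniteType ℂ E] (p : LP K₁ E),
      p.V ∈ Sup D₁ → pv P₁ (cf B D₁) E p = 0)
    (z₂ : ∀ (E : Type) [Field E] [Algebra ℂ E] [Algebra.EssFiniteType ℂ E] (p : LP K₂ E),
      p.V ∈ Sup D₂ → pv P₂ (cf B D₂) E p = 0)
    (hΘ : Nt Θ (Sup D₁) (Sup D₂)) (hl : Liv B (Sup (pb a D₁ ⊓ pb b D₂)) (Θ.dg a b))
    {f : RZ ℂ K₁ → RZ ℂ K₂ → ℂ}
    (hf : ∀ V₁ V₂, Dvs V₁ → Dvs V₂ → od V₁ D₁ ≠ 0 → od V₂ D₂ ≠ 0 → ∀ (E : Type) [Field E]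
      [Algebra ℂ E] [Algebra.EssFiniteType ℂ E] (c₁ : Rf V₁ →ₐ[ℂ] E) (c₂ : Rf V₂ →ₐ[ℂ] E),
      IsPF c₁ c₂ → B.itg E (B.pb (LP.hom c₁) (qv P₁ (cf B D₁) _ (LP.at V₁)) *
        B.pb (LP.hom c₂) (qv P₂ (cf B D₂) _ (LP.at V₂)) *
        Θ E ((LP.at V₁).comp (LP.hom c₁)) ((LP.at V₂).comp (LP.hom c₂))) = f V₁ V₂) :
    sm (pb a D₁ ⊓ pb b D₂) (i1 (qv (PX.on P₁ (LP.hom a) * PX.on P₂ (LP.hom b))
      (cf B (pb a D₁ ⊓ pb b D₂)) * Θ.dg a b)) = sm D₁ fun V₁ => sm D₂ (f V₁) := by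
  classical
  haveI := essFT_pf h
  have p₁ : 0 ≤ pb a D₁ := pb_nonneg_iff.2 h₁
  have p₂ : 0 ≤ pb b D₂ := pb_nonneg_iff.2 h₂
  have s₁ : Sup (pb a D₁ ⊓ pb b D₂) ⊆ Sup (pb a D₁) := sup_inf p₁ p₂ ▸ inter_subset_left
  have s₂ : Sup (pb a D₁ ⊓ pb b D₂) ⊆ Sup (pb b D₂) := sup_inf p₁ p₂ ▸ inter_subset_right
  have q₁ := l₁.qv (Liv.cf hB D₁)
  have q₂ := l₂.qv (Liv.cf hB D₂)
  have n₁ := hΘ.tw q₁ q₂
  have n₂ := hΘ.tw q₁ (l₂.pv Liv.zero)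
  rw [h2 B hB _ _ _ _ _ p₁ p₂
    ((l₁.on (LP.hom a)).mono fun V hV => (res_one_iff (LP.hom a) (val_top D₁)).not.1 (s₁ hV))
    ((l₂.on (LP.hom b)).mono fun V hV => (res_one_iff (LP.hom b) (val_top D₂)).not.1 (s₂ hV)) hl
    (fun E _ _ _ p hp => by rw [cf_pb hB]; exact z₁ E _ (mem_sup_pb.1 (s₁ hp)))
    (fun E _ _ _ p hp _ => by rw [cf_pb hB]; exact z₂ E _ (mem_sup_pb.1 hp)), cf_pb hB, cf_pb hB]
  refine sm_gx h D₁ (fun V hV h3 h0 => ?_) fun V hG hV h3 => ?_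
  · have h4 := (mem_sup hV).2 h3
    split_ifs at h0 with h5
    · haveI := essFT_Rf hV
      by_contra h6
      exact h0 (sm_eq_zero fun W hW h7 => by_contra fun h8 =>
        h6 (gx_two hB h n₁ hV h4 h5 hW ((mem_sup hW).2 h7) h8))
    · exact gx_one hB h n₂ hV h4 h5 h0
  · rw [if_pos (val_pb_of_mem hG.mem D₂)]
    haveI := essFT_Rf hV
    refine sm_in hB h n₁ hG hV h3 fun V₂ h4 h5 E _ _ _ c₁ c₂ hc => ?_
    haveI := essFT_Rf h4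
    rw [← hf _ V₂ hV h4 h3 h5 E c₁ c₂ hc, tw, q₁.nat _ E _ _ ((mem_sup hV).2 h3),
      q₂.nat _ E _ _ ((mem_sup h4).2 h5)]

end Ker

end Crest.Agent.X262.Prod33
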