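import Crest.Agent.X262.Prod33.Ker
import Crest.Agent.X262.Vb.Loc
import Crest.Agent.X262.Hb.Dgc
import Crest.Agent.X262.Node22.Gau
import Crest.Agent.X262.Wd54.Defs
import Crest.Agent.X262.Vb37.Mob
import Crest.Agent.X262.Tree87.Rank

/-!
# Row 262, road B (helper33), part 2: the virtual number of a pair of configurations

* `dv_pair`, `cpz_pair` : the divisor and the Chern polynomial of a disjoint union;
* `vir_ker`  : the virtual number of a pair over a product field, for any insertion;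
* `vir_diag` : the insertion of the diagonal class;
* `prodStmt_of : TwoStmt → Wd54.ProdStmt`.
-/

set_option autoImplicit false
set_option linter.unusedSectionVars false
set_option linter.style.haveILetI false

noncomputable section

namespace Crest.Agent.X262.Prod33

open Crest.Agent.X277 Crest.Agent.X277.BD Crest.Agent.X277.Pst Crest.Agent.X277.BD.Cyc Polynomial
open Crest.Agent.X262.Geo (od od_eq_zero essFT_Rf)
open Crest.Agent.X262.Hb Crest.Agent.X262.Vb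
open Crest.Agent.X262.Sym65 (PF PX sm i1 qv cf Sup Liv LivX Fs TwoStmt mem_sup cl_sup sup_inf)
open Crest.Agent.X262.Node22 (pair Par scl pair_red mem_Eb_pair)
open Crest.Agent.X262.Wd54 (ten ins vrd)
open Crest.Agent.R274.Prod1_134 (IsPF)

variable {J : Type} [Fintype J] [DecidableEq J] {io : J → Type} [∀ j, Fintype (io j)]
  [∀ j, DecidableEq (io j)] {A : Type} [Fintype A] {I I₁ I₂ M M₁ M₂ : Type} [Fintype I]
  [Fintype I₁] [Fintype I₂] {K K₁ K₂ L E : Type} [Field K] [Algebra ℂ K] [Field K₁] [Algebra ℂ K₁]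
  [Field K₂] [Algebra ℂ K₂] [Field L] [Algebra ℂ L] [Field E] [Algebra ℂ E] {B : Th}
  {T : Tgt io A}

/-! ### pairs -/

section Pair

variable {w₁ : Cfg io I₁ K} {w₂ : Cfg io I₂ K}

theorem nz_pair (h₁ : w₁.NZ) (h₂ : w₂.NZ) : (pair w₁ w₂).NZ
  | Sum.inl q => h₁ q
  | Sum.inr q => h₂ q

theorem on_pair : (pair w₁ w₂).On T ↔ w₁.On T ∧ w₂.On T := Sum.forall

theorem nm_pair (V : RZ ℂ K) : nm ((pair w₁ w₂).ea T) V ((pair w₁ w₂).sv T) =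
    max (nm (w₁.ea T) V (w₁.sv T)) (nm (w₂.ea T) V (w₂.sv T)) :=
  eq_of_forall_ge_iff fun γ => by
    rw [max_le_iff, nm_le, nm_le, nm_le]
    exact ⟨fun h => ⟨fun x => h (x.1, .inl x.2), fun x => h (x.1, .inr x.2)⟩,
      fun h x => match x with
        | (a, .inl q) => h.1 (a, q)
        | (a, .inr q) => h.2 (a, q)⟩

theorem dv_pair (h₁ : ¬ w₁.On T) (h₂ : ¬ w₂.On T) : (pair w₁ w₂).dv T = w₁.dv T ⊓ w₂.dv T :=
  ext' fun V => by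
    have h3 := nm_pos (a := w₁.ea T) (V := V) ((Cfg.on_iff T).not.1 h₁)
    have h4 := nm_pos (a := w₂.ea T) (V := V) ((Cfg.on_iff T).not.1 h₂)
    rw [val_inf, Cfg.val_dv T h₁, Cfg.val_dv T h₂, Cfg.val_dv T fun h => h₁ (on_pair.1 h).1,
      nm_pair]
    rcases le_total (nm (w₁.ea T) V (w₁.sv T)) (nm (w₂.ea T) V (w₂.sv T)) with h | h
    · rw [max_eq_right h, min_eq_right (inv_anti₀ h3 h)]
    · rw [max_eq_left h, min_eq_left (inv_anti₀ h4 h)]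

theorem cpz_pair (hB : B.Ax) [Algebra.EssFiniteType ℂ K] (w₁ : Cfg io I₁ K) (w₂ : Cfg io I₂ K) :
    cpz B T (pair w₁ w₂) = cpz B T w₁ * cpz B T w₂ := by
  let g := (Equiv.prodSumDistrib A I₁ I₂).symm
  have h1 : (fun i => (pair w₁ w₂).ea T (g i)) = Sum.elim (w₁.ea T) (w₂.ea T) :=
    funext fun i => by rcases i with i | i <;> rfl
  have h2 : ((pair w₁ w₂).Eb T).map (LinearMap.funLeft K K g) = dsum (w₁.Eb T) (w₂.Eb T) := by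
    ext u
    refine ⟨fun ⟨σ, h, e⟩ => e ▸ mem_Eb_pair.1 h, fun h => ⟨u ∘ g.symm, mem_Eb_pair.2 h, ?_⟩⟩
    funext i
    exact congrArg u (g.symm_apply_apply i)
  rw [cpz, ← hB.cp_funLeft (g := g) fun _ _ i hi => (hi (g.surjective i)).elim, h1, h2, hB.cp_dsum]
  rfl

end Pair

theorem par_of_geq {z z' : Cfg io I K} (h : Cfg.Geq z z') (q : I) : Par (z'.y q) (z.y q) := by
  obtain ⟨c, hc, rfl⟩ := h
  exact ⟨c q, hc q, rfl⟩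

theorem mcls_geq [Algebra.EssFiniteType ℂ K] {Θ : MFam B io (M₁ ⊕ M₂)} (hΘ : MCls B T Θ)
    {w₁ w₁' : Cfg io I₁ K} {w₂ w₂' : Cfg io I₂ K} (g₁ : Cfg.Geq w₁ w₁') (g₂ : Cfg.Geq w₂ w₂')
    (hz : (pair w₁ w₂).NZ) (hO : (pair w₁ w₂).On T) (m : M₁ ⊕ M₂ → I₁ ⊕ I₂) :
    (Θ K fun q => (pair w₁' w₂').y (m q)) = Θ K fun q => (pair w₁ w₂).y (m q) := by
  have h : ∀ x, Par ((pair w₁' w₂').y x) ((pair w₁ w₂).y x) := fun x => by
    rcases x with x | x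
    exacts [par_of_geq g₁ x, par_of_geq g₂ x]
  choose c hc e using h
  rw [funext fun q => e (m q)]
  exact hΘ.scl K _ (fun q => c (m q)) (fun q => hc (m q)) (fun q => hz (m q)) fun q => hO (m q)

theorem mcls_ten {Φ₁ : MFam B io M₁} {Φ₂ : MFam B io M₂} (h₁ : MCls B T Φ₁) (h₂ : MCls B T Φ₂) :
    MCls B T (ten Φ₁ Φ₂) := (h₁.comp Sum.inl).mul (h₂.comp Sum.inr)

theorem mcls_ins {Φ : MFam B io M} (h : MCls B T Φ) (n : M) {e : Fam B io} (he : Cls B T e) :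
    MCls B T (ins Φ n e) := h.mul (he.at n)

theorem sm_fsum {a : BD ℂ K} {ι : Type*} (s : Finset ι) {f : ι → RZ ℂ K → ℂ}
    (h : ∀ i ∈ s, Fs a (f i)) :
    Fs a (fun V => ∑ i ∈ s, f i V) ∧ (sm a fun V => ∑ i ∈ s, f i V) = ∑ i ∈ s, sm a (f i) := by
  classical
  induction s using Finset.induction_on with
  | empty => exact ⟨Set.finite_empty.subset fun V hV => hV.2 (by simp), by simp [sm]⟩
  | insert i s hi ih =>
    obtain ⟨h1, h2⟩ := ih fun j hj => h j (Finset.mem_insert_of_mem hj)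
    simp only [Finset.sum_insert hi]
    have h3 := h i (Finset.mem_insert_self i s)
    exact ⟨h3.add h1, by rw [Sym65.sm_add h3 h1, h2]⟩

theorem sm_sm {a : BD ℂ K₁} {b : BD ℂ K₂} {ι : Type*} [Fintype ι] {u : ι → RZ ℂ K₁ → ℂ}
    {v : ι → RZ ℂ K₂ → ℂ} (hu : ∀ l, Fs a (u l)) (hv : ∀ l, Fs b (v l)) :
    (sm a fun V => sm b fun W => ∑ l, u l V * v l W) = ∑ l, sm a (u l) * sm b (v l) := by
  have h1 : ∀ V, (sm b fun W => ∑ l, u l V * v l W) = ∑ l, sm b (v l) * u l V := fun V => by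
    rw [(sm_fsum _ fun l _ => (hv l).mul (u l V)).2]
    exact Finset.sum_congr rfl fun l _ => by rw [Sym65.sm_mul, mul_comm]
  simp only [h1]
  rw [(sm_fsum _ fun l _ => (hu l).mul _).2]
  exact Finset.sum_congr rfl fun l _ => by rw [Sym65.sm_mul, mul_comm]

/-! ### the product formula -/

/-- the insertion at a pair of places -/
def bf (z₁ : Cfg io I₁ K₁) (z₂ : Cfg io I₂ K₂) (m : M → I₁ ⊕ I₂) (Θ : MFam B io M) : BF B K₁ K₂ :=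
  fun E _ _ p₁ p₂ => Θ E fun q => (pair (z₁.red p₁.toPl) (z₂.red p₂.toPl)).y (m q)

variable {z₁ : Cfg io I₁ K₁} {z₂ : Cfg io I₂ K₂} {Θ : MFam B io (M₁ ⊕ M₂)}

theorem bf_hom [Algebra.EssFiniteType ℂ E] [Algebra.EssFiniteType ℂ L] (hΘ : MCls B T Θ)
    (n₁ : z₁.NZ) (n₂ : z₂.NZ) (m : M₁ ⊕ M₂ → I₁ ⊕ I₂) {E' : Type} [Field E'] [Algebra ℂ E']
    {p₁ : LP K₁ E} {p₂ : LP K₂ E'} (o₁ : (z₁.red p₁.toPl).On T) (o₂ : (z₂.red p₂.toPl).On T)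
    (c₁ : E →ₐ[ℂ] L) (c₂ : E' →ₐ[ℂ] L) :
    bf z₁ z₂ m Θ L (p₁.comp (LP.hom c₁)) (p₂.comp (LP.hom c₂)) =
      Θ L fun q => (pair ((z₁.red p₁.toPl).map c₁) ((z₂.red p₂.toPl).map c₂)).y (m q) :=
  mcls_geq hΘ (Cfg.map_red p₁ c₁ n₁).symm (Cfg.map_red p₂ c₂ n₂).symm
    (nz_pair ((n₁.red _).map _) ((n₂.red _).map _))
    (on_pair.2 ⟨(Cfg.on_map T c₁).2 o₁, (Cfg.on_map T c₂).2 o₂⟩) m

theorem nt_bf (hΘ : MCls B T Θ) (n₁ : z₁.NZ) (n₂ : z₂.NZ) (m : M₁ ⊕ M₂ → I₁ ⊕ I₂) :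
    Nt (bf z₁ z₂ m Θ) (Sup (z₁.dv T)) (Sup (z₂.dv T)) := fun E E' _ _ _ _ _ _ ρ p₁ p₂ h₁ h₂ => by
  have o₁ := Cfg.on_red_of T p₁.lnr n₁ h₁
  have o₂ := Cfg.on_red_of T p₂.lnr n₂ h₂
  rw [bf_hom hΘ n₁ n₂ m o₁ o₂, bf, ← hΘ.map ρ (nz_pair (n₁.red _) (n₂.red _)) (on_pair.2 ⟨o₁, o₂⟩)]
  congr 1
  funext q
  rcases m q with x | x <;> rfl

variable [Algebra.EssFiniteType ℂ K₁] [Algebra.EssFiniteType ℂ K₂] {a : K₁ →ₐ[ℂ] L}
  {b : K₂ →ₐ[ℂ] L}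

/-- **the virtual number of a pair of configurations over a product field** -/
theorem vir_ker (h2 : TwoStmt) (hB : B.Ax) (h : IsPF a b) (r₁ : Rk T z₁) (r₂ : Rk T z₂)
    (o₁ : ¬ z₁.On T) (o₂ : ¬ z₂.On T) (hΘ : MCls B T Θ) (m : M₁ ⊕ M₂ → I₁ ⊕ I₂)
    {f : RZ ℂ K₁ → RZ ℂ K₂ → ℂ}
    (hf : ∀ V₁ V₂, Dvs V₁ → Dvs V₂ → (z₁.red (plV V₁)).On T → (z₂.red (plV V₂)).On T →
      ∀ (E : Type) [Field E] [Algebra ℂ E] [Algebra.EssFiniteType ℂ E] (c₁ : Rf V₁ →ₐ[ℂ] E)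
      (c₂ : Rf V₂ →ₐ[ℂ] E), Prd c₁ c₂ → B.itg E
        (B.pb (LP.hom c₁) (exc B T (z₁.red (plV V₁)) (B.pb (LP.at V₁) (B.c1 (z₁.dv T)))) *
          B.pb (LP.hom c₂) (exc B T (z₂.red (plV V₂)) (B.pb (LP.at V₂) (B.c1 (z₂.dv T)))) *
          Θ E fun q => (pair ((z₁.red (plV V₁)).map c₁) ((z₂.red (plV V₂)).map c₂)).y (m q)) =
        f V₁ V₂) :
    vir B T (pair (z₁.map a) (z₂.map b)) m Θ = sm (z₁.dv T) fun V₁ => sm (z₂.dv T) (f V₁) := by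
  haveI := Wd.essFT_pf h
  have n₁ := r₁.nz
  have n₂ := r₂.nz
  have hz := nz_pair (n₁.map a) (n₂.map b)
  have hd : (pair (z₁.map a) (z₂.map b)).dv T = pb a (z₁.dv T) ⊓ pb b (z₂.dv T) := by
    rw [dv_pair ((Cfg.on_map T a).not.2 o₁) ((Cfg.on_map T b).not.2 o₂), Cfg.dv_map, Cfg.dv_map]
  have he : ∀ (E : Type) [Field E] [Algebra ℂ E] [Algebra.EssFiniteType ℂ E] (p : LP L E),
      p.V ∈ Sup (pb a (z₁.dv T) ⊓ pb b (z₂.dv T)) →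
      evF (pair (z₁.map a) (z₂.map b)) m Θ E p = (bf z₁ z₂ m Θ).dg a b E p := fun E _ _ _ p hp => by
    have h3 := Cfg.on_red_of T p.lnr hz (hd ▸ hp)
    have h4 := hz.red p.toPl
    rw [pair_red] at h3 h4
    rw [evF, pair_red]
    exact (mcls_geq hΘ (Cfg.red_map a p n₁).symm (Cfg.red_map b p n₂).symm h4 h3 m).symm
  rw [vir_eq_sm, hd, ← sm_ker h2 hB h (Cfg.dv_nonneg T n₁) (Cfg.dv_nonneg T n₂)
    ((r₁.livX hB).mono (sup_sub n₁)) ((r₂.livX hB).mono (sup_sub n₂))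
    (fun E _ _ _ p hp => r₁.root' hB hp) (fun E _ _ _ p hp => r₂.root' hB hp) (nt_bf hΘ n₁ n₂ m)
    (((liv_evF hΘ hz m).mono (hd ▸ sup_sub hz)).congr (cl_sup _) he)
    fun V₁ V₂ h₁ h₂ d₁ d₂ E _ _ _ c₁ c₂ hc => ?_]
  · refine Sym65.sm_congr fun V hV h3 => congrArg (B.itg (Rf V)) ?_
    haveI := essFT_Rf hV
    have h4 : cpF B T (pair (z₁.map a) (z₂.map b)) (Rf V) (LP.at V) =
        (Sym65.PX.on (cpF B T z₁) (LP.hom a) * Sym65.PX.on (cpF B T z₂) (LP.hom b)) (Rf V)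
          (LP.at V) := by
      rw [cpF, pair_red, cpz_pair hB, cpz_geq hB (Cfg.red_map a (LP.at V) n₁) (n₁.red _),
        cpz_geq hB (Cfg.red_map b (LP.at V) n₂) (n₂.red _)]
      rfl
    exact congrArg₂ (· * ·) (congrArg (fun P : (B.H (Rf V))[X] => (-P.divX).eval _) h4)
      (he _ (LP.at V) ((mem_sup hV).2 h3))
  · haveI := essFT_Rf h₁
    haveI := essFT_Rf h₂
    have h3 := on_at n₁ ((mem_sup h₁).2 d₁)
    have h4 := on_at n₂ ((mem_sup h₂).2 d₂)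
    rw [bf_hom hΘ n₁ n₂ m (p₁ := LP.at V₁) (p₂ := LP.at V₂) h3 h4]
    exact hf V₁ V₂ h₁ h₂ h3 h4 E c₁ c₂ (prd_of_isPF hc)

/-- **product and diagonal** -/
theorem vrd_diag (h2 : TwoStmt) (hB : B.Ax) {c : ℕ} (hS : Smo T c) {ι : Type} [Fintype ι]
    {e e' : ι → Fam B io} (he : ∀ l, Cls B T (e l)) (he' : ∀ l, Cls B T (e' l))
    (hD : Diag B T e e') (h : IsPF a b) (r₁ : Rk T z₁) (r₂ : Rk T z₂) (o₁ : ¬ z₁.On T)
    (o₂ : ¬ z₂.On T) (m₁ : M₁ → I₁) (m₂ : M₂ → I₂) (n₁ : M₁) (n₂ : M₂) {Φ₁ : MFam B io M₁}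
    {Φ₂ : MFam B io M₂} (h₁ : MCls B T Φ₁) (h₂ : MCls B T Φ₂) :
    vrd B T (pair (z₁.map a) (z₂.map b)) (Sum.map m₁ m₂) (ten Φ₁ Φ₂) (.inl (m₁ n₁))
        (.inr (m₂ n₂)) =
      ∑ l, vir B T z₁ m₁ (ins Φ₁ n₁ (e l)) * vir B T z₂ m₂ (ins Φ₂ n₂ (e' l)) := by
  have h3 := vir_ker h2 hB h r₁ r₂ o₁ o₂
    ((mcls_ten h₁ h₂).mul (hB.mcls_dgc hS (Sum.inl n₁) (Sum.inr n₂))) (Sum.map m₁ m₂)
    (f := fun V W => ∑ l, B.itg (Rf V) (trm B T z₁ m₁ (ins Φ₁ n₁ (e l)) V) *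
      B.itg (Rf W) (trm B T z₂ m₂ (ins Φ₂ n₂ (e' l)) W))
    fun V₁ V₂ d₁ d₂ s₁ s₂ E _ _ _ c₁ c₂ hc => by
      haveI := essFT_Rf d₁
      haveI := essFT_Rf d₂
      have h4 := r₁.nz.red (plV V₁)
      have h5 := r₂.nz.red (plV V₂)
      have h6 := hD _ _ E c₁ c₂ hc _ _ (h4 (m₁ n₁)) (s₁ _) (h5 (m₂ n₂)) (s₂ _)
        (trm B T z₁ m₁ Φ₁ V₁) (trm B T z₂ m₂ Φ₂ V₂)
      rw [trm, trm, map_mul (B.pb (LP.hom c₁)), map_mul (B.pb (LP.hom c₂)), ← h₁.map c₁ h4 s₁,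
        ← h₂.map c₂ h5 s₂] at h6
      refine Eq.trans (congrArg (B.itg E) ?_) (h6.trans (Finset.sum_congr rfl fun l _ => ?_))
      · rw [mul_mul_mul_comm, mul_assoc _ (_ * _)]
        rfl
      · rw [mul_assoc, mul_assoc]
        rfl
  rw [sm_sm (fun l => fs_vir hB (mcls_ins h₁ n₁ (he l)) r₁.nz m₁)
    fun l => fs_vir hB (mcls_ins h₂ n₂ (he' l)) r₂.nz m₂] at h3
  refine Eq.trans (finsum_congr fun W => finsum_congr fun _ => ?_) h3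
  rw [trm, trm, mul_assoc]
  rfl

/-- **PROD + DIAG** -/
theorem prodStmt_of (h2 : TwoStmt) : Wd54.ProdStmt := by
  intro B hB J _ _ io _ _ A _ T c hS ι _ e e' he he' hD d₁ d₂
  obtain ⟨N₁, h₁⟩ := rk_of Tree87.rankStmt (hS.good d₁)
  obtain ⟨N₂, h₂⟩ := rk_of Tree87.rankStmt (hS.good d₂)
  refine ⟨max N₁ N₂, ?_⟩
  intro I₁ I₂ M₁ M₂ L₁ L₂ L _ _ _ _ _ _ _ _ _ _ _ α₁ α₂ hP η₁ η₂ m₁ m₂ n₁ n₂ Φ₁ Φ₂ f₁ f₂ u₁ u₂ o₁ o₂
  rw [Vb37.cfg_map, Vb37.cfg_map]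
  exact vrd_diag h2 hB hS he he' hD (isPF_of_prd hP)
    (h₁ η₁ (Tree87.nz_cfg η₁) (Vb37.nrmUp_mono u₁ (le_max_left _ _)))
    (h₂ η₂ (Tree87.nz_cfg η₂) (Vb37.nrmUp_mono u₂ (le_max_right _ _))) o₁ o₂ m₁ m₂ n₁ n₂ f₁ f₂

end Crest.Agent.X262.Prod33
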